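import Vale.Agent.P074.PL
import Vale.Agent.P254.Hull

/-!
P254: for an even log-concave weight the second moment of a linear functional is at most twice
the square of its first absolute moment.
-/

namespace Vale.Agent.P254.L1

open MeasureTheory Set Filter Topology Real
open scoped ENNReal Matrix

variable {n : ℕ} {w : (Fin n → ℝ) → ℝ≥0∞}

lemma lintegral_ofReal_sub (z : ℝ) :
    ∫⁻ s in Ioi (0 : ℝ), ENNReal.ofReal (z - s) = ENNReal.ofReal z ^ 2 / 2 := by
  rcases le_or_gt z 0 with hz | hz
  · rw [ENNReal.ofReal_of_nonpos hz, setLIntegral_congr_fun measurableSet_Ioi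
      (g := fun _ => 0) fun s (hs : 0 < s) => ENNReal.ofReal_of_nonpos (by linarith)]
    simp
  have hc : Continuous fun s : ℝ => z - s := by fun_prop
  have e : EqOn (fun s => ENNReal.ofReal (z - s))
      ((Ioc 0 z).indicator fun s => ENNReal.ofReal (z - s)) (Ioi 0) := fun s (hs : 0 < s) => by
    by_cases h : s ≤ z
    · simp [indicator_of_mem (show s ∈ Ioc 0 z from ⟨hs, h⟩)]
    · simp only [indicator_of_notMem fun h' : s ∈ Ioc 0 z => h h'.2]
      exact ENNReal.ofReal_of_nonpos (by linarith)
  rw [setLIntegral_congr_fun measurableSet_Ioi e, lintegral_indicator measurableSet_Ioc,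
    Measure.restrict_restrict measurableSet_Ioc, inter_eq_left.2 Ioc_subset_Ioi_self,
    ← ofReal_integral_eq_lintegral_ofReal
      (hc.continuousOn.integrableOn_Icc.mono_set Ioc_subset_Icc_self)
      ((ae_restrict_iff' measurableSet_Ioc).2 (.of_forall fun s hs => sub_nonneg.2 hs.2)),
    ← intervalIntegral.integral_of_le hz.le, intervalIntegral.integral_comp_sub_left (fun s => s) z,
    sub_self, sub_zero, integral_id, zero_pow two_ne_zero, sub_zero,
    ENNReal.ofReal_div_of_pos two_pos, ENNReal.ofReal_pow hz.le, ENNReal.ofReal_ofNat]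

theorem moment_ratio (hw : Measurable w)
    (hmid : ∀ x y, w x * w y ≤ w ((1 / 2 : ℝ) • (x + y)) ^ 2) (heven : ∀ x, w (-x) = w x)
    (hpos : ∀ x, w x ≠ 0) (hfin : ∫⁻ x, w x ≠ ⊤) (a : Fin n → ℝ) :
    (∫⁻ x, w x * ENNReal.ofReal ((a ⬝ᵥ x) ^ 2)) * ∫⁻ x, w x ≤
      2 * (∫⁻ x, w x * ENNReal.ofReal |a ⬝ᵥ x|) ^ 2 := by
  rcases eq_or_ne a 0 with rfl | ha
  · simp
  have hd : Measurable fun x : Fin n → ℝ => a ⬝ᵥ x :=
    (by fun_prop : Continuous fun x : Fin n → ℝ => a ⬝ᵥ x).measurable
  set z := fun x : Fin n → ℝ => a ⬝ᵥ x with hzdef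
  set G : ℝ → ℝ≥0∞ := fun s => ∫⁻ x in {x | s < z x}, w x with hG
  have hmeas : ∀ s : ℝ, MeasurableSet {x | s < z x} := fun s => measurableSet_lt measurable_const hd
  have hGne : ∀ s, G s ≠ ⊤ := fun s => ne_top_of_le_ne_top hfin (setLIntegral_le_lintegral _ _)
  have hGpos : ∀ s, G s ≠ 0 := fun s => by
    refine ne_of_gt ((setLIntegral_pos_iff hw).2 ?_)
    have hsupp : Function.support w = univ := by ext x; simpa using hpos x
    rw [hsupp, univ_inter]
    refine (isOpen_lt continuous_const (by fun_prop)).measure_pos volume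
      ⟨((|s| + 1) / (a ⬝ᵥ a)) • a, ?_⟩
    show s < a ⬝ᵥ (((|s| + 1) / (a ⬝ᵥ a)) • a)
    rw [dotProduct_smul, smul_eq_mul, div_mul_cancel₀ _ fun h => ha (dotProduct_self_eq_zero.1 h)]
    linarith [le_abs_self s]
  have hGmono : ∀ p q, p ≤ q → G q ≤ G p := fun p q h =>
    lintegral_mono_set fun x (hx : q < z x) => lt_of_le_of_lt h hx
  have hGmid : ∀ p q, G p * G q ≤ G ((p + q) / 2) ^ 2 := fun p q => by
    simp only [hG, ← lintegral_indicator (hmeas _)]
    refine P074.pl_pi n (hw.indicator (hmeas _)) (hw.indicator (hmeas _))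
      (hw.indicator (hmeas _)) fun x y => ?_
    by_cases hx : x ∈ {x | p < z x}
    · by_cases hy : y ∈ {x | q < z x}
      · have hm : (1 / 2 : ℝ) • (x + y) ∈ {x | (p + q) / 2 < z x} := by
          have h1 : p < a ⬝ᵥ x := hx
          have h2 : q < a ⬝ᵥ y := hy
          show (p + q) / 2 < a ⬝ᵥ ((1 / 2 : ℝ) • (x + y))
          rw [dotProduct_smul, dotProduct_add, smul_eq_mul]
          linarith
        rw [indicator_of_mem hx, indicator_of_mem hy, indicator_of_mem hm]
        exact hmid x y
      · simp [indicator_of_notMem hy]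
    · simp [indicator_of_notMem hx]
  set L : ℝ → ℝ := fun s => Real.log (G s).toReal with hL
  have hg : ∀ s, 0 < (G s).toReal := fun s => ENNReal.toReal_pos (hGpos s) (hGne s)
  have hLmono : ∀ p q, p ≤ q → L q ≤ L p := fun p q h =>
    Real.log_le_log (hg q) (ENNReal.toReal_mono (hGne p) (hGmono p q h))
  have hLmid : ∀ p q, (L p + L q) / 2 ≤ L ((p + q) / 2) := fun p q => by
    have h := ENNReal.toReal_mono (ENNReal.pow_ne_top (hGne _)) (hGmid p q)
    rw [ENNReal.toReal_mul, ENNReal.toReal_pow] at h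
    have := Real.log_le_log (mul_pos (hg p) (hg q)) h
    rw [Real.log_mul (hg p).ne' (hg q).ne', Real.log_pow] at this
    simp only [hL]
    push_cast at this
    linarith
  have hdy : ∀ c : ℝ, ∀ m j : ℕ, j ≤ 2 ^ m →
      (1 - (j : ℝ) / 2 ^ m) * L 0 + (j : ℝ) / 2 ^ m * L c ≤ L ((j : ℝ) / 2 ^ m * c) := by
    intro c m
    induction m with
    | zero =>
      intro j hj
      rcases Nat.le_one_iff_eq_zero_or_eq_one.1 (by simpa using hj) with rfl | rfl <;> simp
    | succ m ih =>
      intro j hj
      have h2 : 2 ^ (m + 1) = 2 * 2 ^ m := by ring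
      set p := j / 2 with hp
      set q := j - j / 2 with hq
      have hpq : (j : ℝ) = p + q := by exact_mod_cast (by omega : j = p + q)
      have := hLmid ((p : ℝ) / 2 ^ m * c) ((q : ℝ) / 2 ^ m * c)
      have h3 := ih p (by omega)
      have h4 := ih q (by omega)
      have e : ((p : ℝ) / 2 ^ m * c + (q : ℝ) / 2 ^ m * c) / 2 = (j : ℝ) / 2 ^ (m + 1) * c := by
        rw [hpq, pow_succ]; ring
      rw [e] at this
      refine le_trans ?_ this
      calc _ = ((1 - (p : ℝ) / 2 ^ m) * L 0 + (p : ℝ) / 2 ^ m * L c +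
            ((1 - (q : ℝ) / 2 ^ m) * L 0 + (q : ℝ) / 2 ^ m * L c)) / 2 := by
            rw [hpq, pow_succ]; ring
        _ ≤ _ := by linarith
  have hconc : ∀ c r : ℝ, 0 ≤ c → 0 ≤ r → r ≤ 1 → (1 - r) * L 0 + r * L c ≤ L (r * c) := by
    intro c r hc hr0 hr1
    set jm : ℕ → ℕ := fun m => ⌈r * 2 ^ m⌉₊ with hjm
    have hl : Tendsto (fun m => ((jm m : ℝ)) / 2 ^ m) atTop (𝓝 r) := by
      have hup : Tendsto (fun m : ℕ => r + 1 / (2 : ℝ) ^ m) atTop (𝓝 r) := by
        simpa using (tendsto_const_nhds (x := r)).add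
          ((tendsto_const_nhds (x := (1 : ℝ))).div_atTop
            (tendsto_pow_atTop_atTop_of_one_lt one_lt_two))
      refine tendsto_of_tendsto_of_tendsto_of_le_of_le tendsto_const_nhds hup (fun m => ?_) fun m => ?_
      · exact (le_div_iff₀ (by positivity)).2 (Nat.le_ceil _)
      · rw [div_le_iff₀ (by positivity), add_mul, div_mul_cancel₀ _ (by positivity)]
        exact (Nat.ceil_lt_add_one (by positivity)).le
    have hla : Tendsto (fun m => (1 - (jm m : ℝ) / 2 ^ m) * L 0 + (jm m : ℝ) / 2 ^ m * L c) atTop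
        (𝓝 ((1 - r) * L 0 + r * L c)) :=
      (((tendsto_const_nhds (x := (1 : ℝ))).sub hl).mul_const _).add (hl.mul_const _)
    refine le_of_tendsto' hla fun m => ?_
    refine (hdy c m (jm m) (Nat.ceil_le.2 ?_)).trans (hLmono _ _ ?_)
    · push_cast; exact mul_le_of_le_one_left (by positivity) hr1
    · exact mul_le_mul_of_nonneg_right ((le_div_iff₀ (by positivity)).2 (Nat.le_ceil _)) hc
  have hsub : ∀ s t : ℝ, 0 < s → 0 < t → G (s + t) * G 0 ≤ G s * G t := by
    intro s t hs ht
    have hst : 0 < s + t := by linarith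
    have h1 := hconc (s + t) (s / (s + t)) hst.le (by positivity) ((div_le_one hst).2 (by linarith))
    have h2 := hconc (s + t) (t / (s + t)) hst.le (by positivity) ((div_le_one hst).2 (by linarith))
    rw [div_mul_cancel₀ _ hst.ne'] at h1 h2
    have e : s / (s + t) + t / (s + t) = 1 := by field_simp
    have h3 : L (s + t) + L 0 ≤ L s + L t := by
      have : (1 - s / (s + t)) * L 0 + s / (s + t) * L (s + t) +
          ((1 - t / (s + t)) * L 0 + t / (s + t) * L (s + t)) = L (s + t) + L 0 := by
        calc _ = (2 - (s / (s + t) + t / (s + t))) * L 0 +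
              (s / (s + t) + t / (s + t)) * L (s + t) := by ring
          _ = _ := by rw [e]; ring
      linarith
    simp only [hL] at h3
    rw [← Real.log_mul (hg _).ne' (hg _).ne', ← Real.log_mul (hg _).ne' (hg _).ne',
      Real.log_le_log_iff (mul_pos (hg _) (hg _)) (mul_pos (hg _) (hg _))] at h3
    rw [← ENNReal.toReal_le_toReal (ENNReal.mul_ne_top (hGne _) (hGne _))
      (ENNReal.mul_ne_top (hGne _) (hGne _)), ENNReal.toReal_mul, ENNReal.toReal_mul]
    exact h3
  -- the tail integrals
  have hGmeas : Measurable G := Antitone.measurable fun p q h => hGmono p q h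
  set A := ∫⁻ x, w x * ENNReal.ofReal (z x) with hA
  set P := ∫⁻ x, w x * ENNReal.ofReal (z x) ^ 2 with hP
  have htail : ∀ c : ℝ, ∫⁻ t in Ioi 0, G (c + t) = ∫⁻ x, w x * ENNReal.ofReal (z x - c) := by
    intro c
    simp only [hG, ← lintegral_indicator (hmeas _)]
    have hS : MeasurableSet {p : ℝ × (Fin n → ℝ) | c + p.1 < z p.2} :=
      measurableSet_lt (measurable_fst.const_add c) (hd.comp measurable_snd)
    rw [lintegral_lintegral_swap (f := fun t x => {x | c + t < z x}.indicator w x)
      ((hw.comp measurable_snd).indicator hS).aemeasurable]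
    refine lintegral_congr fun x => ?_
    have e : (fun t => {x | c + t < z x}.indicator w x) = (Iio (z x - c)).indicator fun _ => w x := by
      funext t
      by_cases h : c + t < z x
      · rw [indicator_of_mem (show x ∈ {x | c + t < z x} from h),
          indicator_of_mem (show t ∈ Iio (z x - c) from by rw [mem_Iio]; linarith)]
      · rw [indicator_of_notMem (show x ∉ {x | c + t < z x} from h),
          indicator_of_notMem (show t ∉ Iio (z x - c) from by rw [mem_Iio]; linarith)]
    simp only [e]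
    rw [lintegral_indicator measurableSet_Iio, Measure.restrict_restrict measurableSet_Iio,
      setLIntegral_const, inter_comm, Ioi_inter_Iio, Real.volume_Ioo, sub_zero]
  have hAeq : ∫⁻ t in Ioi 0, G t = A := by simpa using htail 0
  have hmain : P / 2 * G 0 ≤ A * A := by
    have hPeq : ∫⁻ s in Ioi 0, ∫⁻ t in Ioi 0, G (s + t) = P / 2 := by
      simp only [htail]
      have hm : Measurable fun p : ℝ × (Fin n → ℝ) => w p.2 * ENNReal.ofReal (z p.2 - p.1) :=
        (hw.comp measurable_snd).mul ((hd.comp measurable_snd).sub measurable_fst).ennreal_ofReal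
      have hwz : Measurable fun x => w x * ENNReal.ofReal (z x) ^ 2 :=
        hw.mul (hd.ennreal_ofReal.pow_const 2)
      rw [lintegral_lintegral_swap (f := fun s x => w x * ENNReal.ofReal (z x - s)) hm.aemeasurable,
        hP, div_eq_mul_inv, ← lintegral_mul_const _ hwz]
      refine lintegral_congr fun x => ?_
      rw [lintegral_const_mul _ (by fun_prop), lintegral_ofReal_sub, div_eq_mul_inv, mul_assoc]
    rw [← hPeq]
    calc (∫⁻ s in Ioi 0, ∫⁻ t in Ioi 0, G (s + t)) * G 0
        = ∫⁻ s in Ioi 0, ∫⁻ t in Ioi 0, G (s + t) * G 0 := by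
          rw [← lintegral_mul_const' _ _ (hGne 0)]
          exact lintegral_congr fun s => (lintegral_mul_const' _ _ (hGne 0)).symm
      _ ≤ ∫⁻ s in Ioi 0, ∫⁻ t in Ioi 0, G s * G t :=
          setLIntegral_mono' measurableSet_Ioi fun s hs =>
            setLIntegral_mono' measurableSet_Ioi fun t ht => hsub s t hs ht
      _ = A * A := by
          conv_lhs => enter [2, s]; rw [lintegral_const_mul _ hGmeas, hAeq]
          rw [lintegral_mul_const _ hGmeas, hAeq]
  -- both signs
  have hsym : ∀ f : ℝ → ℝ≥0∞, Measurable f →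
      ∫⁻ x, w x * f (-z x) = ∫⁻ x, w x * f (z x) := fun f hf => by
    have hm : Measurable fun x => w x * f (-z x) := hw.mul (hf.comp hd.neg)
    rw [← (Measure.measurePreserving_neg (volume : Measure (Fin n → ℝ))).lintegral_comp hm]
    simp [z, heven, dotProduct_neg]
  have hsplit : ∀ f : ℝ → ℝ≥0∞, Measurable f →
      ∫⁻ x, w x * (f (z x) + f (-z x)) = 2 * ∫⁻ x, w x * f (z x) := fun f hf => by
    simp only [mul_add]
    have hm : Measurable fun x => w x * f (z x) := hw.mul (hf.comp hd)
    rw [lintegral_add_left hm, hsym f hf, two_mul]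
  have h1 : ∫⁻ x, w x * ENNReal.ofReal ((a ⬝ᵥ x) ^ 2) = 2 * P := by
    rw [hP, ← hsplit (fun t => ENNReal.ofReal t ^ 2) (by fun_prop)]
    refine lintegral_congr fun x => ?_
    congr 1
    rcases le_total 0 (z x) with h | h
    · simp [ENNReal.ofReal_of_nonpos (neg_nonpos.2 h), ← ENNReal.ofReal_pow h, z]
    · rw [ENNReal.ofReal_of_nonpos h, zero_pow two_ne_zero, zero_add,
        ← ENNReal.ofReal_pow (neg_nonneg.2 h), neg_sq]
  have h2 : ∫⁻ x, w x * ENNReal.ofReal |a ⬝ᵥ x| = 2 * A := by
    rw [hA, ← hsplit ENNReal.ofReal ENNReal.measurable_ofReal]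
    refine lintegral_congr fun x => ?_
    congr 1
    rcases le_total 0 (z x) with h | h
    · rw [ENNReal.ofReal_of_nonpos (neg_nonpos.2 h), add_zero, abs_of_nonneg h]
    · rw [ENNReal.ofReal_of_nonpos h, zero_add, abs_of_nonpos h]
  have h3 : ∫⁻ x, w x ≤ 2 * G 0 := by
    have hcover : ∀ x, w x ≤ {x | 0 < z x}.indicator w x + {x | z x ≤ 0}.indicator w x := fun x => by
      by_cases h : 0 < z x
      · rw [indicator_of_mem (show x ∈ {x | 0 < z x} from h)]
        exact le_self_add
      · rw [indicator_of_mem (show x ∈ {x | z x ≤ 0} from not_lt.1 h)]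
        exact le_add_self
    refine (lintegral_mono hcover).trans (le_of_eq ?_)
    have hm0 : MeasurableSet {x | z x ≤ 0} := measurableSet_le hd measurable_const
    rw [lintegral_add_left (hw.indicator (hmeas 0)), lintegral_indicator (hmeas 0),
      lintegral_indicator hm0, two_mul]
    congr 1
    have hnull : volume {x : Fin n → ℝ | z x = 0} = 0 := by
      refine measure_mono_null ?_ (volume_zero_of_dotProduct_homog (g := Fin.cons 0 a) fun h =>
        ha (funext fun i => by simpa using congrFun h i.succ))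
      intro x hx
      simpa [homog, dotProduct, Fin.sum_univ_succ, z] using hx
    have hae : ({x | z x ≤ 0} : Set (Fin n → ℝ)) =ᵐ[volume] {x | z x < 0} := by
      refine ae_eq_set.2 ⟨measure_mono_null (fun x hx => ?_) hnull,
        measure_mono_null (fun x hx => absurd (le_of_lt (show z x < 0 from hx.1)) hx.2)
          (measure_empty)⟩
      exact le_antisymm hx.1 (not_lt.1 hx.2)
    rw [setLIntegral_congr hae, hG]
    have hneg : MeasurableSet {x | z x < 0} := measurableSet_lt hd measurable_const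
    show ∫⁻ x in {x | z x < 0}, w x = ∫⁻ x in {x | 0 < z x}, w x
    rw [← lintegral_indicator hneg, ← lintegral_indicator (hmeas 0),
      ← (Measure.measurePreserving_neg (volume : Measure (Fin n → ℝ))).lintegral_comp
        (hw.indicator hneg)]
    refine lintegral_congr fun x => ?_
    by_cases h : 0 < z x
    · rw [indicator_of_mem (show x ∈ {x | 0 < z x} from h),
        indicator_of_mem (show -x ∈ {x | z x < 0} from by simpa [z] using h), heven]
    · rw [indicator_of_notMem (show x ∉ {x | 0 < z x} from h),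
        indicator_of_notMem (show -x ∉ {x | z x < 0} from by simpa [z] using h)]
  rw [h1, h2]
  calc 2 * P * ∫⁻ x, w x ≤ 2 * P * (2 * G 0) := mul_le_mul' le_rfl h3
    _ = 8 * (P / 2 * G 0) := by
        rw [div_eq_mul_inv, show (8 : ℝ≥0∞) * (P * 2⁻¹ * G 0) = (2 * 2⁻¹) * (4 * P * G 0) by ring,
          ENNReal.mul_inv_cancel two_ne_zero ENNReal.ofNat_ne_top, one_mul]
        ring
    _ ≤ 8 * (A * A) := mul_le_mul' le_rfl hmain
    _ = 2 * (2 * A) ^ 2 := by ring

end Vale.Agent.P254.L1
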