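import Vale.Agent.P254.L1.Radial
import Vale.Agent.P254.L1.Ratio
import Vale.Agent.P254.Slabs.Main

/-!
P254: unit balls of finite-dimensional subspaces of `L¹` (polars of zonoids) have isotropic
constant below that of the simplex in every dimension at least 22.
-/

namespace Vale.Agent.P254.L1

open MeasureTheory Set Real
open scoped ENNReal Nat Matrix MatrixOrder

variable {n : ℕ}

/-- The norm `x ↦ ∫ |u ⬝ x| dμ u`. -/
noncomputable def phiMu (μ : Measure (Fin n → ℝ)) (x : Fin n → ℝ) : ℝ := ∫ u, |u ⬝ᵥ x| ∂μ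

lemma abs_dot_le (u x : Fin n → ℝ) : |u ⬝ᵥ x| ≤ n * ‖x‖ * ‖u‖ := by
  calc |u ⬝ᵥ x| ≤ ∑ i, |u i * x i| := Finset.abs_sum_le_sum_abs _ _
    _ ≤ ∑ _i : Fin n, ‖u‖ * ‖x‖ := Finset.sum_le_sum fun i _ => by
        rw [abs_mul]
        exact mul_le_mul (norm_le_pi_norm u i) (norm_le_pi_norm x i) (abs_nonneg _) (norm_nonneg _)
    _ = _ := by simp; ring

lemma integrable_dot {μ : Measure (Fin n → ℝ)} (hμ : Integrable id μ) (x : Fin n → ℝ) :
    Integrable (fun u => |u ⬝ᵥ x|) μ :=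
  (hμ.norm.const_mul ((n : ℝ) * ‖x‖)).mono'
    (by fun_prop : Continuous fun u : Fin n → ℝ => |u ⬝ᵥ x|).aestronglyMeasurable
    (.of_forall fun u => by simpa using abs_dot_le u x)

lemma phiMu_nonneg (μ : Measure (Fin n → ℝ)) (x : Fin n → ℝ) : 0 ≤ phiMu μ x :=
  integral_nonneg fun _ => abs_nonneg _

lemma phiMu_smul (μ : Measure (Fin n → ℝ)) (r : ℝ) (x : Fin n → ℝ) :
    phiMu μ (r • x) = |r| * phiMu μ x := by
  rw [phiMu, phiMu, ← integral_const_mul]
  simp [dotProduct_smul, abs_mul]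

lemma phiMu_neg (μ : Measure (Fin n → ℝ)) (x : Fin n → ℝ) : phiMu μ (-x) = phiMu μ x := by
  simp [phiMu, dotProduct_neg]

lemma phiMu_add {μ : Measure (Fin n → ℝ)} (hμ : Integrable id μ) (x y : Fin n → ℝ) :
    phiMu μ (x + y) ≤ phiMu μ x + phiMu μ y := by
  rw [phiMu, phiMu, phiMu, ← integral_add (integrable_dot hμ x) (integrable_dot hμ y)]
  refine integral_mono (integrable_dot hμ _) ((integrable_dot hμ x).add (integrable_dot hμ y))
    fun u => ?_
  simp only [dotProduct_add]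
  exact abs_add_le _ _

lemma continuous_phiMu {μ : Measure (Fin n → ℝ)} (hμ : Integrable id μ) :
    Continuous (phiMu μ) := by
  set C := (n : ℝ) * ∫ u, ‖u‖ ∂μ with hC
  have hb : ∀ x, phiMu μ x ≤ C * ‖x‖ := fun x => by
    rw [hC, phiMu, show (n : ℝ) * (∫ u, ‖u‖ ∂μ) * ‖x‖ = ∫ u, (n : ℝ) * ‖x‖ * ‖u‖ ∂μ by
      rw [integral_const_mul]; ring]
    exact integral_mono (integrable_dot hμ x) (hμ.norm.const_mul _) fun u => abs_dot_le u x
  refine (LipschitzWith.of_le_add_mul C.toNNReal fun x y => ?_).continuous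
  have h := phiMu_add hμ (x - y) y
  rw [sub_add_cancel] at h
  have h2 : C * ‖x - y‖ ≤ (C.toNNReal : ℝ) * dist x y := by
    rw [dist_eq_norm]
    exact mul_le_mul_of_nonneg_right (Real.le_coe_toNNReal C) (norm_nonneg _)
  linarith [hb (x - y)]

lemma num : ∀ n : ℕ, 22 ≤ n → ((n : ℝ) + 1) < (π / exp 1) ^ n := by
  intro n hn
  have hq : (115572 / 100000 : ℝ) ≤ π / exp 1 := by
    rw [le_div_iff₀ (exp_pos 1)]
    nlinarith [Real.exp_one_lt_d9, Real.pi_gt_d6]
  have h : ∀ m : ℕ, 22 ≤ m → ((m : ℝ) + 1) < (115572 / 100000 : ℝ) ^ m := by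
    intro m hm
    induction m, hm using Nat.le_induction with
    | base => norm_num
    | succ m hm ih =>
      have hm' : (22 : ℝ) ≤ m := by exact_mod_cast hm
      rw [pow_succ]
      push_cast
      nlinarith
  exact (h n hn).trans_le (pow_le_pow_left₀ (by norm_num) hq n)

/-- The main theorem. -/
theorem main (hn : 22 ≤ n) (μ : Measure (Fin n → ℝ)) (hμ : Integrable id μ) (c : Fin n → ℝ)
    (hb : Bornology.IsBounded {x : Fin n → ℝ | ∫ u, |u ⬝ᵥ (x - c)| ∂μ ≤ 1})
    [SFinite μ] {w : Fin (n + 1) → Fin n → ℝ} (hw : AffineIndependent ℝ w) :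
    isotropicConst {x : Fin n → ℝ | ∫ u, |u ⬝ᵥ (x - c)| ∂μ ≤ 1} <
      isotropicConst (convexHull ℝ (Set.range w)) := by
  have hn0 : n ≠ 0 := by omega
  have hn' : (0 : ℝ) < n := by exact_mod_cast Nat.pos_of_ne_zero hn0
  have hΦc := continuous_phiMu hμ
  set Φ := phiMu μ with hΦ
  have hΦ0 : ∀ x, 0 ≤ Φ x := phiMu_nonneg μ
  have hhom : ∀ (r : ℝ) x, 0 ≤ r → Φ (r • x) = r * Φ x := fun r x hr => by
    rw [hΦ, phiMu_smul, abs_of_nonneg hr]
  set K := {x : Fin n → ℝ | Φ x ≤ 1} with hKdef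
  set Kc := {x : Fin n → ℝ | ∫ u, |u ⬝ᵥ (x - c)| ∂μ ≤ 1} with hKcdef
  -- the central body
  have hbd : Bornology.IsBounded K := by
    obtain ⟨R, hR⟩ := hb.subset_closedBall c
    refine (Metric.isBounded_closedBall (x := (0 : Fin n → ℝ)) (r := R)).subset fun x hx => ?_
    have hx' : Φ x ≤ 1 := hx
    have := hR (show x + c ∈ Kc by simpa [Kc, Φ, phiMu] using hx')
    simpa [Metric.mem_closedBall, dist_eq_norm] using this
  have hKc : IsCompact K :=
    Metric.isCompact_of_isClosed_isBounded (isClosed_le hΦc continuous_const) hbd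
  have hKm : MeasurableSet K := hKc.measurableSet
  have hΦz : Φ 0 = 0 := by simpa using hhom 0 0 le_rfl
  have hopen : IsOpen {x | Φ x < 1} := isOpen_lt hΦc continuous_const
  have hVpos : 0 < volume.real K :=
    ENNReal.toReal_pos ((hopen.measure_pos volume ⟨0, by simp [hΦz]⟩).trans_le
      (measure_mono fun x (hx : Φ x < 1) => le_of_lt hx)).ne' hKc.measure_lt_top.ne
  set V := volume.real K with hV
  have hΦpos : ∀ x, x ≠ 0 → 0 < Φ x := by
    intro x hx
    refine lt_of_le_of_ne (hΦ0 x) fun h => ?_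
    obtain ⟨R, hR⟩ := hbd.subset_closedBall 0
    have hxn : 0 < ‖x‖ := norm_pos_iff.2 hx
    have := hR (show ((|R| + 1) / ‖x‖) • x ∈ K by
      show Φ _ ≤ 1
      rw [hhom _ _ (by positivity), ← h, mul_zero]; exact zero_le_one)
    rw [mem_closedBall_zero_iff, norm_smul, Real.norm_eq_abs, abs_of_nonneg (by positivity),
      div_mul_cancel₀ _ hxn.ne'] at this
    linarith [le_abs_self R]
  -- second moments
  set M : Matrix (Fin n) (Fin n) ℝ := Matrix.of fun i j => V⁻¹ * ∫ x in K, x i * x j with hM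
  have hint : ∀ i j, IntegrableOn (fun x : Fin n → ℝ => x i * x j) K := fun i j =>
    (by fun_prop : Continuous fun x : Fin n → ℝ => x i * x j).continuousOn.integrableOn_compact hKc
  have quad : ∀ a : Fin n → ℝ, a ⬝ᵥ (M *ᵥ a) = V⁻¹ * ∫ x in K, (a ⬝ᵥ x) ^ 2 := by
    intro a
    have e : ∀ x : Fin n → ℝ, (a ⬝ᵥ x) ^ 2 = ∑ i, ∑ j, a i * a j * (x i * x j) := fun x => by
      rw [pow_two, dotProduct, Finset.sum_mul_sum]
      exact Finset.sum_congr rfl fun i _ => Finset.sum_congr rfl fun j _ => by ring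
    simp only [e]
    rw [integral_finsetSum _ fun i _ => integrable_finsetSum _ fun j _ => (hint i j).const_mul _,
      Finset.mul_sum]
    simp only [dotProduct, Matrix.mulVec, M, Matrix.of_apply, Finset.mul_sum]
    refine Finset.sum_congr rfl fun i _ => ?_
    rw [integral_finsetSum _ fun j _ => (hint i j).const_mul _, Finset.mul_sum]
    refine Finset.sum_congr rfl fun j _ => ?_
    rw [integral_const_mul]
    ring
  have hquad0 : ∀ a, 0 ≤ a ⬝ᵥ (M *ᵥ a) := fun a => by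
    rw [quad]; exact mul_nonneg (inv_nonneg.2 hVpos.le) (integral_nonneg fun x => sq_nonneg _)
  have hMpsd : M.PosSemidef := by
    refine Matrix.posSemidef_iff_dotProduct_mulVec.2 ⟨?_, fun a => ?_⟩
    · ext i j; simp [M, mul_comm]
    · rw [star_trivial]; exact hquad0 a
  have hquad1 : ∀ a, a ≠ 0 → 0 < a ⬝ᵥ (M *ᵥ a) := by
    intro a ha
    rw [quad]
    refine mul_pos (inv_pos.2 hVpos) ((setIntegral_pos_iff_support_of_nonneg_ae
      (.of_forall fun x => sq_nonneg (a ⬝ᵥ x))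
      ((by fun_prop : Continuous fun x : Fin n → ℝ => (a ⬝ᵥ x) ^ 2).continuousOn.integrableOn_compact
        hKc)).2 ?_)
    refine lt_of_lt_of_le ((hopen.inter (isOpen_ne_fun (f := fun x : Fin n → ℝ => a ⬝ᵥ x)
      (g := fun _ => (0 : ℝ)) (by fun_prop) continuous_const)).measure_pos volume ?_) (measure_mono ?_)
    · refine ⟨(2 * (Φ a + 1))⁻¹ • a, ?_, ?_⟩
      · show Φ _ < 1
        have := hΦ0 a
        rw [hhom _ _ (by positivity), inv_mul_lt_iff₀ (by positivity)]
        linarith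
      · show a ⬝ᵥ _ ≠ 0
        have := hΦ0 a
        rw [dotProduct_smul, smul_eq_mul]
        exact mul_ne_zero (by positivity) fun h => ha (dotProduct_self_eq_zero.1 h)
    · rintro x ⟨hx1 : Φ x < 1, hx2⟩
      exact ⟨pow_ne_zero 2 hx2, le_of_lt hx1⟩
  set σ : (Fin n → ℝ) → ℝ := fun u => √(u ⬝ᵥ (M *ᵥ u)) with hσ
  have hσc : Continuous σ := by rw [hσ]; fun_prop
  have hσ0 : ∀ u, 0 ≤ σ u := fun u => Real.sqrt_nonneg _
  have hσhom : ∀ (r : ℝ) u, σ (r • u) = |r| * σ u := fun r u => by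
    simp only [hσ, Matrix.mulVec_smul, smul_dotProduct, dotProduct_smul, smul_eq_mul]
    rw [show r * (r * (u ⬝ᵥ M *ᵥ u)) = r ^ 2 * (u ⬝ᵥ M *ᵥ u) by ring,
      Real.sqrt_mul (sq_nonneg r), Real.sqrt_sq_eq_abs]
  obtain ⟨κ₀, hκ₀, hlow⟩ : ∃ k : ℝ, 0 < k ∧ ∀ u, k * ‖u‖ ≤ σ u := by
    have hne : (Metric.sphere (0 : Fin n → ℝ) 1).Nonempty :=
      ⟨fun _ => 1, by
        have : Nonempty (Fin n) := ⟨⟨0, Nat.pos_of_ne_zero hn0⟩⟩
        simp [Pi.norm_def, Finset.sup_const Finset.univ_nonempty]⟩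
    obtain ⟨u₀, hu₀, hmin⟩ := (isCompact_sphere _ _).exists_isMinOn hne hσc.continuousOn
    refine ⟨σ u₀, Real.sqrt_pos.2 (hquad1 u₀ fun h => by simp [h] at hu₀), fun u => ?_⟩
    rcases eq_or_ne u 0 with rfl | hu
    · simp [hσ]
    have hun : 0 < ‖u‖ := norm_pos_iff.2 hu
    have h : σ u₀ ≤ σ (‖u‖⁻¹ • u) := hmin (show ‖u‖⁻¹ • u ∈ Metric.sphere (0 : Fin n → ℝ) 1 by
      simp [norm_smul, hun.ne'])
    rw [hσhom, abs_of_pos (inv_pos.2 hun), le_inv_mul_iff₀ hun] at h
    linarith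
  -- first against second moments on the body
  have hball : ∀ {f : (Fin n → ℝ) → ℝ≥0∞}, Measurable f → ∀ k : ℕ,
      (∀ (r : ℝ) x, 0 < r → f (r • x) = ENNReal.ofReal (r ^ k) * f x) →
      ∫⁻ x, ENNReal.ofReal (exp (-Φ x)) * f x = ENNReal.ofReal ((n + k) ! : ℝ) * ∫⁻ x in K, f x :=
    fun hf k hk => radial hΦc hΦ0 hhom hf k hk
  set κ := √(2 * ((n : ℝ) + 1) / ((n : ℝ) + 2)) with hκ
  have hmarg : ∀ a : Fin n → ℝ, σ a * V ≤ κ * ∫ x in K, |a ⬝ᵥ x| := by
    intro a
    have hwm : Measurable fun x => ENNReal.ofReal (exp (-Φ x)) := by fun_prop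
    have hmid : ∀ x y, ENNReal.ofReal (exp (-Φ x)) * ENNReal.ofReal (exp (-Φ y)) ≤
        ENNReal.ofReal (exp (-Φ ((1 / 2 : ℝ) • (x + y)))) ^ 2 := fun x y => by
      rw [← ENNReal.ofReal_mul (exp_pos _).le, ← ENNReal.ofReal_pow (exp_pos _).le, ← exp_add,
        ← exp_nat_mul]
      refine ENNReal.ofReal_le_ofReal (exp_le_exp.2 ?_)
      have h1 := phiMu_add hμ x y
      rw [hhom _ _ (by norm_num)]
      push_cast
      linarith
    have hone : ∫⁻ x, ENNReal.ofReal (exp (-Φ x)) =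
        ENNReal.ofReal ((n ! : ℝ) * V) := by
      have := hball (f := fun _ => 1) measurable_const 0 (fun r x _ => by simp)
      simpa [hV, measureReal_def, ENNReal.ofReal_mul, ENNReal.ofReal_toReal hKc.measure_lt_top.ne]
        using this
    have hr := moment_ratio hwm hmid (fun x => by rw [hΦ, phiMu_neg])
      (fun x => (ENNReal.ofReal_pos.2 (exp_pos _)).ne') (by rw [hone]; exact ENNReal.ofReal_ne_top) a
    have i2 : IntegrableOn (fun x => (a ⬝ᵥ x) ^ 2) K :=
      (by fun_prop : Continuous fun x : Fin n → ℝ => (a ⬝ᵥ x) ^ 2).continuousOn.integrableOn_compact hKc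
    have i1 : IntegrableOn (fun x => |a ⬝ᵥ x|) K :=
      (by fun_prop : Continuous fun x : Fin n → ℝ => |a ⬝ᵥ x|).continuousOn.integrableOn_compact hKc
    rw [hone, hball (f := fun x => ENNReal.ofReal ((a ⬝ᵥ x) ^ 2)) (by fun_prop) 2 (fun r x hr => by
        rw [← ENNReal.ofReal_mul (by positivity), dotProduct_smul, smul_eq_mul, mul_pow]),
      hball (f := fun x => ENNReal.ofReal |a ⬝ᵥ x|) (by fun_prop) 1 (fun r x hr => by
        rw [← ENNReal.ofReal_mul (by positivity), dotProduct_smul, smul_eq_mul, abs_mul,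
          abs_of_pos hr, pow_one]),
      ← ofReal_integral_eq_lintegral_ofReal i2 (.of_forall fun x => sq_nonneg _),
      ← ofReal_integral_eq_lintegral_ofReal i1 (.of_forall fun x => abs_nonneg _)] at hr
    set m2 := ∫ x in K, (a ⬝ᵥ x) ^ 2 with hm2
    set m1 := ∫ x in K, |a ⬝ᵥ x| with hm1
    have hm20 : 0 ≤ m2 := integral_nonneg fun x => sq_nonneg _
    have hm10 : 0 ≤ m1 := integral_nonneg fun x => abs_nonneg _
    rw [← ENNReal.ofReal_mul (by positivity), ← ENNReal.ofReal_mul (by positivity),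
      ← ENNReal.ofReal_mul (by positivity), ← ENNReal.ofReal_pow (by positivity),
      ← ENNReal.ofReal_ofNat, ← ENNReal.ofReal_mul (by norm_num),
      ENNReal.ofReal_le_ofReal_iff (by positivity)] at hr
    have hf2 : ((n + 2) ! : ℝ) = ((n : ℝ) + 2) * ((n : ℝ) + 1) * n ! := by
      push_cast [Nat.factorial_succ]; ring
    have hf1 : ((n + 1) ! : ℝ) = ((n : ℝ) + 1) * n ! := by push_cast [Nat.factorial_succ]; ring
    rw [hf2, hf1] at hr
    have hfac : (0 : ℝ) < ((n : ℝ) + 1) * (n ! : ℝ) ^ 2 := by positivity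
    have key : ((n : ℝ) + 2) * m2 * V ≤ 2 * ((n : ℝ) + 1) * m1 ^ 2 :=
      le_of_mul_le_mul_left (by linarith) hfac
    refine (sq_le_sq₀ (mul_nonneg (hσ0 a) hVpos.le) (mul_nonneg (Real.sqrt_nonneg _) hm10)).1 ?_
    rw [mul_pow, mul_pow, show σ a ^ 2 = a ⬝ᵥ (M *ᵥ a) from Real.sq_sqrt (hquad0 a),
      Real.sq_sqrt (by positivity), quad, ← hm2,
      div_mul_eq_mul_div, le_div_iff₀ (by positivity)]
    calc V⁻¹ * m2 * V ^ 2 * ((n : ℝ) + 2) = ((n : ℝ) + 2) * m2 * V := by field_simp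
      _ ≤ _ := key
  -- the integral of sigma
  have hsum : ∫⁻ u, ENNReal.ofReal (σ u * V) ∂μ ≤
      ENNReal.ofReal (κ * ((n : ℝ) / (n + 1) * V)) := by
    calc ∫⁻ u, ENNReal.ofReal (σ u * V) ∂μ
        ≤ ∫⁻ u, ENNReal.ofReal κ * (∫⁻ x in K, ENNReal.ofReal |u ⬝ᵥ x|) ∂μ := by
          refine lintegral_mono fun u => ?_
          rw [← ofReal_integral_eq_lintegral_ofReal
            ((by fun_prop : Continuous fun x : Fin n → ℝ => |u ⬝ᵥ x|).continuousOn.integrableOn_compact
              hKc) (.of_forall fun x => abs_nonneg _), ← ENNReal.ofReal_mul (Real.sqrt_nonneg _)]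
          exact ENNReal.ofReal_le_ofReal (hmarg u)
      _ = ENNReal.ofReal κ * ∫⁻ x in K, (∫⁻ u, ENNReal.ofReal |u ⬝ᵥ x| ∂μ) := by
          rw [lintegral_const_mul' _ _ ENNReal.ofReal_ne_top, lintegral_lintegral_swap]
          exact ((by fun_prop : Continuous fun p : (Fin n → ℝ) × (Fin n → ℝ) =>
            |p.1 ⬝ᵥ p.2|).measurable.ennreal_ofReal).aemeasurable
      _ = ENNReal.ofReal κ * ∫⁻ x in K, ENNReal.ofReal (Φ x) := by
          congr 1
          refine lintegral_congr fun x => ?_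
          rw [hΦ, phiMu, ofReal_integral_eq_lintegral_ofReal (integrable_dot hμ x)
            (.of_forall fun u => abs_nonneg _)]
      _ = _ := by
          rw [lintegral_self hΦc hΦ0 hhom hKc.measure_lt_top.ne,
            ← ENNReal.ofReal_mul (Real.sqrt_nonneg _)]
  have hσi : Integrable σ μ := by
    have h : Integrable (fun u => σ u * V) μ := by
      refine ⟨(hσc.mul continuous_const).aestronglyMeasurable,
        (hasFiniteIntegral_iff_ofReal (.of_forall fun u => mul_nonneg (hσ0 u) hVpos.le)).2 ?_⟩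
      exact hsum.trans_lt ENNReal.ofReal_lt_top
    simpa [mul_assoc, hVpos.ne'] using h.mul_const V⁻¹
  set S := ∫ u, σ u ∂μ with hS
  have hSle : S ≤ κ * ((n : ℝ) / (n + 1)) := by
    have h := hsum
    rw [← ofReal_integral_eq_lintegral_ofReal (hσi.mul_const V)
      (.of_forall fun u => mul_nonneg (hσ0 u) hVpos.le),
      ENNReal.ofReal_le_ofReal_iff (by positivity), integral_mul_const] at h
    exact le_of_mul_le_mul_right (by rw [hS]; linarith) hVpos
  have hSpos : 0 < S := by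
    refine lt_of_le_of_ne (integral_nonneg hσ0) fun h => ?_
    have hae := (integral_eq_zero_iff_of_nonneg hσ0 hσi).1 h.symm
    have hx : (fun _ => 1 : Fin n → ℝ) ≠ 0 := fun h1 => by
      simpa using congrFun h1 ⟨0, Nat.pos_of_ne_zero hn0⟩
    refine (hΦpos _ hx).ne' (integral_eq_zero_of_ae ?_)
    filter_upwards [hae] with u (hu : σ u = 0)
    have : u = 0 := norm_le_zero_iff.1 (by nlinarith [hlow u, norm_nonneg u])
    simp [this]
  -- the reweighted Gram matrix
  have hbi : ∀ i j, Integrable (fun u : Fin n → ℝ => (σ u)⁻¹ * (u i * u j)) μ := by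
    intro i j
    refine (hμ.norm.const_mul κ₀⁻¹).mono' ((hσc.measurable.inv.mul
      ((measurable_pi_apply i).mul (measurable_pi_apply j))).aestronglyMeasurable)
      (.of_forall fun u => ?_)
    simp only [Real.norm_eq_abs, abs_mul, abs_inv, abs_of_nonneg (hσ0 u), id_eq]
    rcases eq_or_ne u 0 with rfl | hu
    · simp
    have hun : 0 < ‖u‖ := norm_pos_iff.2 hu
    have hσpos : 0 < σ u := lt_of_lt_of_le (mul_pos hκ₀ hun) (hlow u)
    calc (σ u)⁻¹ * (|u i| * |u j|) ≤ (κ₀ * ‖u‖)⁻¹ * (‖u‖ * ‖u‖) :=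
          mul_le_mul (inv_anti₀ (by positivity) (hlow u))
            (mul_le_mul (norm_le_pi_norm u i) (norm_le_pi_norm u j) (abs_nonneg _) (norm_nonneg _))
            (by positivity) (by positivity)
      _ = κ₀⁻¹ * ‖u‖ := by field_simp
  set Q : Matrix (Fin n) (Fin n) ℝ := Matrix.of fun i j => ∫ u, (σ u)⁻¹ * (u i * u j) ∂μ with hQ
  have hbq : ∀ y, Integrable (fun u => (σ u)⁻¹ * (u ⬝ᵥ y) ^ 2) μ ∧
      y ⬝ᵥ (Q *ᵥ y) = ∫ u, (σ u)⁻¹ * (u ⬝ᵥ y) ^ 2 ∂μ := by
    intro y
    have e : (fun u : Fin n → ℝ => (σ u)⁻¹ * (u ⬝ᵥ y) ^ 2) =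
        fun u => ∑ i, ∑ j, y i * y j * ((σ u)⁻¹ * (u i * u j)) := funext fun u => by
      rw [pow_two, dotProduct, Finset.sum_mul_sum, Finset.mul_sum]
      refine Finset.sum_congr rfl fun i _ => ?_
      rw [Finset.mul_sum]
      exact Finset.sum_congr rfl fun j _ => by ring
    refine ⟨e ▸ integrable_finsetSum _ fun i _ => integrable_finsetSum _ fun j _ =>
      (hbi i j).const_mul _, ?_⟩
    rw [e, integral_finsetSum _ fun i _ => integrable_finsetSum _ fun j _ => (hbi i j).const_mul _]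
    simp only [dotProduct, Matrix.mulVec, Q, Matrix.of_apply, Finset.mul_sum]
    refine Finset.sum_congr rfl fun i _ => ?_
    rw [integral_finsetSum _ fun j _ => (hbi i j).const_mul _]
    refine Finset.sum_congr rfl fun j _ => ?_
    rw [integral_const_mul]
    ring
  have hQpsd : Q.PosSemidef := by
    refine Matrix.posSemidef_iff_dotProduct_mulVec.2 ⟨?_, fun a => ?_⟩
    · ext i j; simp [Q, mul_comm]
    · rw [star_trivial, (hbq a).2]
      exact integral_nonneg fun u => mul_nonneg (inv_nonneg.2 (hσ0 u)) (sq_nonneg _)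
  obtain ⟨C, hC⟩ := CStarAlgebra.nonneg_iff_eq_star_mul_self.mp hQpsd.nonneg
  have hG : Cᵀ * C = Q := by simpa [Matrix.star_eq_conjTranspose] using hC.symm
  have hCsq : ∀ y, (C *ᵥ y) ⬝ᵥ (C *ᵥ y) = y ⬝ᵥ (Q *ᵥ y) := fun y => by
    rw [Matrix.dotProduct_mulVec, ← Matrix.mulVec_transpose, Matrix.mulVec_mulVec, hG,
      dotProduct_comm]
  have hCdet : C.det ≠ 0 := by
    intro h
    obtain ⟨y, hy, hy0⟩ := Matrix.exists_mulVec_eq_zero_iff.2 h
    have h0 : ∫ u, (σ u)⁻¹ * (u ⬝ᵥ y) ^ 2 ∂μ = 0 := by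
      rw [← (hbq y).2, ← hCsq, hy0, zero_dotProduct]
    have hae := (integral_eq_zero_iff_of_nonneg
      (fun u => mul_nonneg (inv_nonneg.2 (hσ0 u)) (sq_nonneg _)) (hbq y).1).1 h0
    refine (hΦpos y hy).ne' (integral_eq_zero_of_ae ?_)
    filter_upwards [hae] with u hu
    simp only [Pi.zero_apply, mul_eq_zero, inv_eq_zero, pow_eq_zero_iff two_ne_zero] at hu
    rcases hu with hu | hu
    · have : u = 0 := norm_le_zero_iff.1 (by nlinarith [hlow u, norm_nonneg u])
      simp [this]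
    · simp [hu]
  -- the determinant bound
  have htr : (C * M * Cᵀ).trace = S := by
    rw [Matrix.trace_mul_comm, ← Matrix.mul_assoc, hG]
    simp only [Matrix.trace, Matrix.diag_apply, Matrix.mul_apply, Q, Matrix.of_apply]
    simp only [← integral_mul_const]
    rw [hS]
    rw [Finset.sum_congr rfl fun i _ =>
      (integral_finsetSum _ fun j _ => (hbi i j).mul_const (M j i)).symm,
      ← integral_finsetSum _ fun i _ => integrable_finsetSum _ fun j _ => (hbi i j).mul_const _]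
    refine integral_congr_ae (.of_forall fun u => ?_)
    have e : ∑ i, ∑ j, (σ u)⁻¹ * (u i * u j) * M j i = (σ u)⁻¹ * σ u ^ 2 := by
      rw [hσ, Real.sq_sqrt (hquad0 u)]
      simp only [dotProduct, Matrix.mulVec, Finset.mul_sum]
      refine Finset.sum_congr rfl fun i _ => Finset.sum_congr rfl fun j _ => ?_
      have : M j i = M i j := by simp [M, mul_comm]
      rw [this]; ring
    show ∑ i, ∑ j, (σ u)⁻¹ * (u i * u j) * M j i = σ u
    rw [e]
    rcases eq_or_ne (σ u) 0 with h | h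
    · simp [h]
    · field_simp
  have hdet : M.det * C.det ^ 2 ≤ (S / n) ^ n := by
    have hS' : (C * M * Cᵀ).PosSemidef := by
      simpa [Matrix.conjTranspose_eq_transpose_of_trivial] using hMpsd.mul_mul_conjTranspose_same C
    have h := Slabs.det_le_trace hn0 hS'
    rw [Matrix.det_mul, Matrix.det_mul, Matrix.det_transpose, htr] at h
    calc M.det * C.det ^ 2 = C.det * M.det * C.det := by ring
      _ ≤ _ := h
  -- the volume bound
  set γ := S / n with hγ
  have hγ0 : 0 < γ := div_pos hSpos hn'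
  have hpt : ∀ x, Φ x ≤ γ / 2 * ((C *ᵥ x) ⬝ᵥ (C *ᵥ x)) + (n : ℝ) / 2 := by
    intro x
    have e : γ / 2 * ((C *ᵥ x) ⬝ᵥ (C *ᵥ x)) + (n : ℝ) / 2 =
        ∫ u, (γ / 2 * ((σ u)⁻¹ * (u ⬝ᵥ x) ^ 2) + (2 * γ)⁻¹ * σ u) ∂μ := by
      rw [integral_add ((hbq x).1.const_mul _) (hσi.const_mul _), integral_const_mul,
        integral_const_mul, ← (hbq x).2, hCsq, ← hS, hγ]
      field_simp
    rw [e]
    refine integral_mono (integrable_dot hμ x) (((hbq x).1.const_mul _).add (hσi.const_mul _))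
      fun u => ?_
    rcases eq_or_ne u 0 with rfl | hu
    · simp [hσ]
    have hσpos : 0 < σ u :=
      lt_of_lt_of_le (mul_pos hκ₀ (norm_pos_iff.2 hu)) (hlow u)
    show |u ⬝ᵥ x| ≤ _
    rw [← sub_nonneg]
    have hexp : γ / 2 * ((σ u)⁻¹ * (u ⬝ᵥ x) ^ 2) + (2 * γ)⁻¹ * σ u - |u ⬝ᵥ x| =
        (γ * |u ⬝ᵥ x| - σ u) ^ 2 / (2 * γ * σ u) := by
      rw [← sq_abs (u ⬝ᵥ x)]
      field_simp
      ring
    rw [hexp]
    positivity
  have hZ : exp (-((n : ℝ) / 2)) * √(2 * π / γ) ^ n ≤ (n ! : ℝ) * V * |C.det| := by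
    have hm : Measurable fun z : Fin n → ℝ => ENNReal.ofReal (exp (-(γ / 2) * (z ⬝ᵥ z))) := by
      fun_prop
    have hg : ∫⁻ y, ENNReal.ofReal (exp (-(γ / 2) * ((C *ᵥ y) ⬝ᵥ (C *ᵥ y)))) =
        ENNReal.ofReal (√(2 * π / γ) ^ n / |C.det|) := by
      calc ∫⁻ y, ENNReal.ofReal (exp (-(γ / 2) * ((C *ᵥ y) ⬝ᵥ (C *ᵥ y))))
          = ∫⁻ z, ENNReal.ofReal (exp (-(γ / 2) * (z ⬝ᵥ z)))
              ∂(Measure.map (Matrix.toLin' C) volume) := by
            rw [lintegral_map hm (Matrix.toLin' C).continuous_of_finiteDimensional.measurable]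
            rfl
        _ = _ := by
            rw [Real.map_matrix_volume_pi_eq_smul_volume_pi hCdet, lintegral_smul_measure,
              smul_eq_mul]
            have e : ∀ z : Fin n → ℝ,
                exp (-(γ / 2) * (z ⬝ᵥ z)) = ∏ i, exp (-(γ / 2) * z i ^ 2) := fun z => by
              rw [← exp_sum, dotProduct, Finset.mul_sum]; simp only [pow_two]
            simp only [e]
            have hi : Integrable fun z : Fin n → ℝ => ∏ i, exp (-(γ / 2) * z i ^ 2) :=
              Integrable.fintype_prod (f := fun _ x => exp (-(γ / 2) * x ^ 2))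
                fun _ => integrable_exp_neg_mul_sq (by positivity)
            rw [← ofReal_integral_eq_lintegral_ofReal hi
                (.of_forall fun z => Finset.prod_nonneg fun i _ => (exp_pos _).le),
              integral_fintype_prod_volume_eq_prod (fun _ x => exp (-(γ / 2) * x ^ 2)),
              Finset.prod_const, Finset.card_univ, Fintype.card_fin, integral_gaussian,
              ← ENNReal.ofReal_mul (abs_nonneg _), abs_inv, inv_mul_eq_div,
              show π / (γ / 2) = 2 * π / γ by field_simp]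
    have h1 : ENNReal.ofReal (exp (-((n : ℝ) / 2))) *
        ENNReal.ofReal (√(2 * π / γ) ^ n / |C.det|) ≤ ENNReal.ofReal ((n ! : ℝ) * V) := by
      have hb' := hball (f := fun _ => 1) measurable_const 0 (fun r x _ => by simp)
      simp only [mul_one, add_zero, lintegral_const, Measure.restrict_apply MeasurableSet.univ,
        univ_inter, one_mul] at hb'
      rw [← hg, ← lintegral_const_mul' _ _ ENNReal.ofReal_ne_top,
        ENNReal.ofReal_mul (Nat.cast_nonneg _), hV, measureReal_def,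
        ENNReal.ofReal_toReal hKc.measure_lt_top.ne, ← hb']
      refine lintegral_mono fun y => ?_
      rw [← ENNReal.ofReal_mul (exp_pos _).le, ← exp_add]
      refine ENNReal.ofReal_le_ofReal (exp_le_exp.2 ?_)
      linarith [hpt y]
    rw [← ENNReal.ofReal_mul (exp_pos _).le, ENNReal.ofReal_le_ofReal_iff (by positivity),
      mul_div, div_le_iff₀ (abs_pos.2 hCdet)] at h1
    linarith
  -- translation
  have hpre : (fun x : Fin n → ℝ => x + c) ⁻¹' Kc = K := by
    ext x; simp [Kc, K, Φ, phiMu]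
  have hint' : ∀ f : (Fin n → ℝ) → ℝ, ∫ x in Kc, f x = ∫ x in K, f (x + c) := fun f => by
    rw [← hpre]
    exact ((measurePreserving_add_right volume c).setIntegral_preimage_emb
      (measurableEmbedding_addRight c) f Kc).symm
  have hvol : volume.real Kc = V := by
    rw [hV, ← hpre, measureReal_def, measureReal_def, measure_preimage_add_right]
  have hmean : ∀ i, ∫ x in K, x i = 0 := by
    intro i
    have hpn : (fun x : Fin n → ℝ => -x) ⁻¹' K = K := by
      ext x; simp [K, Φ, phiMu_neg]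
    have h := (Measure.measurePreserving_neg (volume : Measure (Fin n → ℝ))).setIntegral_preimage_emb
      (MeasurableEquiv.neg _).measurableEmbedding (fun x => x i) K
    rw [hpn] at h
    simp only [Pi.neg_apply, integral_neg] at h
    linarith
  have hcent : ∀ i, centroid Kc i = c i := fun i => by
    rw [centroid, hint', hvol]
    simp only [Pi.add_apply]
    rw [integral_add ((continuous_apply i).continuousOn.integrableOn_compact hKc)
      (continuousOn_const.integrableOn_compact hKc), hmean, setIntegral_const, zero_add,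
      smul_eq_mul, ← hV, inv_mul_cancel_left₀ hVpos.ne']
  have hcov : cov Kc = M := by
    ext i j
    simp only [cov, Matrix.of_apply, hcent, hint', hvol, Pi.add_apply, add_sub_cancel_right, M]
  rw [OneSym.simplex_value ((affineIndependent_iff_det w).1 hw), isotropicConst, hcov, hvol]
  refine Real.rpow_lt_rpow (div_nonneg hMpsd.det_nonneg (sq_nonneg _)) ?_ (by positivity)
  show _ < Slabs.sval n
  rw [Slabs.sval_eq]
  -- the numerical comparison
  have hγ2 : γ ^ 2 ≤ 2 / (((n : ℝ) + 1) * ((n : ℝ) + 2)) := by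
    have h1 : γ ≤ κ / ((n : ℝ) + 1) := by
      rw [hγ, div_le_iff₀ hn']
      exact hSle.trans (le_of_eq (by ring))
    refine (pow_le_pow_left₀ hγ0.le h1 2).trans (le_of_eq ?_)
    rw [div_pow, hκ, Real.sq_sqrt (by positivity)]
    field_simp
  have hZ2 : exp (-(n : ℝ)) * (2 * π / γ) ^ n ≤ (n ! : ℝ) ^ 2 * V ^ 2 * C.det ^ 2 := by
    have h2 := pow_le_pow_left₀ (by positivity) hZ 2
    have e1 : exp (-((n : ℝ) / 2)) ^ 2 = exp (-(n : ℝ)) := by
      rw [pow_two, ← exp_add]; congr 1; ring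
    rwa [mul_pow, mul_pow, mul_pow, sq_abs, e1, pow_right_comm,
      Real.sq_sqrt (by positivity)] at h2
  have hbound : M.det / V ^ 2 ≤ (n ! : ℝ) ^ 2 * ((γ ^ 2) ^ n * exp (n : ℝ) / (2 * π) ^ n) := by
    rw [div_le_iff₀ (by positivity)]
    refine le_of_mul_le_mul_right ?_ (by positivity : 0 < C.det ^ 2)
    calc M.det * C.det ^ 2 ≤ γ ^ n := hdet
      _ = (γ ^ 2) ^ n * exp (n : ℝ) / (2 * π) ^ n * (exp (-(n : ℝ)) * (2 * π / γ) ^ n) := by
          have e1 : (γ ^ 2) ^ n * (2 * π / γ) ^ n = γ ^ n * (2 * π) ^ n := by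
            rw [← mul_pow, ← mul_pow]; congr 1; field_simp
          rw [exp_neg, show (γ ^ 2) ^ n * exp (n : ℝ) / (2 * π) ^ n *
              ((exp (n : ℝ))⁻¹ * (2 * π / γ) ^ n) = (γ ^ 2) ^ n * (2 * π / γ) ^ n *
              (exp (n : ℝ) * (exp (n : ℝ))⁻¹) / (2 * π) ^ n by ring, e1,
            mul_inv_cancel₀ (exp_pos _).ne', mul_one, mul_div_cancel_right₀ _ (by positivity)]
      _ ≤ (γ ^ 2) ^ n * exp (n : ℝ) / (2 * π) ^ n * ((n ! : ℝ) ^ 2 * V ^ 2 * C.det ^ 2) :=
          mul_le_mul_of_nonneg_left hZ2 (by positivity)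
      _ = _ := by ring
  refine hbound.trans_lt ?_
  have hbase : (γ ^ 2) ^ n * exp (n : ℝ) / (2 * π) ^ n ≤
      (exp 1 / π) ^ n / ((((n : ℝ) + 1) ^ n) * ((n : ℝ) + 2) ^ n) := by
    rw [show exp (n : ℝ) = exp 1 ^ n by rw [← exp_nat_mul, mul_one], ← mul_pow, ← div_pow,
      ← mul_pow, ← div_pow]
    refine pow_le_pow_left₀ (by positivity) ?_ n
    calc γ ^ 2 * exp 1 / (2 * π)
        ≤ 2 / (((n : ℝ) + 1) * ((n : ℝ) + 2)) * exp 1 / (2 * π) := by gcongr
      _ = _ := by field_simp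
  refine (mul_le_mul_of_nonneg_left hbase (by positivity)).trans_lt ?_
  have hnum : (exp 1 / π) ^ n * ((n : ℝ) + 1) < 1 := by
    have := num n hn
    rw [div_pow, lt_div_iff₀ (by positivity)] at this
    rw [div_pow, div_mul_eq_mul_div, div_lt_one (by positivity)]
    linarith
  calc (n ! : ℝ) ^ 2 * ((exp 1 / π) ^ n / (((n : ℝ) + 1) ^ n * ((n : ℝ) + 2) ^ n))
      = (n ! : ℝ) ^ 2 / (((n : ℝ) + 2) ^ n * ((n : ℝ) + 1) ^ (n + 1)) *
          ((exp 1 / π) ^ n * ((n : ℝ) + 1)) := by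
        rw [pow_succ]; field_simp; ring
    _ < _ := mul_lt_of_lt_one_right (by positivity) hnum

end Vale.Agent.P254.L1
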