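import Mathlib

/-!
P254: integrals against `exp (-Φ)` of homogeneous functions, for a positively homogeneous `Φ`.
-/

namespace Vale.Agent.P254.L1

open MeasureTheory Set Real
open scoped ENNReal Nat

variable {n : ℕ}

lemma lintegral_exp_pow (m : ℕ) :
    ∫⁻ t in Ioi (0 : ℝ), ENNReal.ofReal (exp (-t) * t ^ m) = ENNReal.ofReal (m ! : ℝ) := by
  have hm : (0 : ℝ) < (m : ℝ) + 1 := by positivity
  have e : EqOn (fun t : ℝ => exp (-t) * t ^ ((m : ℝ) + 1 - 1)) (fun t => exp (-t) * t ^ m) (Ioi 0) :=
    fun t _ => by simp [add_sub_cancel_right, rpow_natCast]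
  have hi : IntegrableOn (fun t : ℝ => exp (-t) * t ^ m) (Ioi 0) :=
    (Real.GammaIntegral_convergent hm).congr_fun e measurableSet_Ioi
  rw [← ofReal_integral_eq_lintegral_ofReal hi
      ((ae_restrict_iff' measurableSet_Ioi).2 (.of_forall fun t (ht : 0 < t) => by positivity)),
    ← setIntegral_congr_fun measurableSet_Ioi e, ← Real.Gamma_eq_integral hm,
    Real.Gamma_nat_eq_factorial]

/-- The scaling of Lebesgue measure. -/
lemma lintegral_scale {t : ℝ} (ht : 0 < t) {g : (Fin n → ℝ) → ℝ≥0∞} (hg : Measurable g) :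
    ∫⁻ x, g x = ENNReal.ofReal (t ^ n) * ∫⁻ y, g (t • y) := by
  rw [← lintegral_map hg (measurable_const_smul t), Measure.map_addHaar_smul volume ht.ne',
    lintegral_smul_measure, Module.finrank_fin_fun, smul_eq_mul, ← mul_assoc,
    ← ENNReal.ofReal_mul (by positivity), abs_inv, abs_of_pos (pow_pos ht n),
    mul_inv_cancel₀ (pow_pos ht n).ne', ENNReal.ofReal_one, one_mul]

/-- The radial formula. -/
theorem radial {Φ : (Fin n → ℝ) → ℝ} (hΦ : Continuous Φ) (h0 : ∀ x, 0 ≤ Φ x)
    (hhom : ∀ (r : ℝ) x, 0 ≤ r → Φ (r • x) = r * Φ x) {f : (Fin n → ℝ) → ℝ≥0∞}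
    (hf : Measurable f) (k : ℕ)
    (hk : ∀ (r : ℝ) x, 0 < r → f (r • x) = ENNReal.ofReal (r ^ k) * f x) :
    ∫⁻ x, ENNReal.ofReal (exp (-Φ x)) * f x =
      ENNReal.ofReal ((n + k) ! : ℝ) * ∫⁻ x in {x | Φ x ≤ 1}, f x := by
  have hK : MeasurableSet {x | Φ x ≤ 1} := measurableSet_le hΦ.measurable measurable_const
  let F : (Fin n → ℝ) → ℝ → ℝ≥0∞ := fun x t =>
    (Ici (Φ x)).indicator (fun t => ENNReal.ofReal (exp (-t)) * f x) t
  have hF : Measurable (Function.uncurry F) := by
    have h : MeasurableSet {p : (Fin n → ℝ) × ℝ | Φ p.1 ≤ p.2} :=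
      measurableSet_le (hΦ.measurable.comp measurable_fst) measurable_snd
    exact ((by fun_prop : Measurable fun p : (Fin n → ℝ) × ℝ => ENNReal.ofReal (exp (-p.2))).mul
      (hf.comp measurable_fst)).indicator h
  calc ∫⁻ x, ENNReal.ofReal (exp (-Φ x)) * f x = ∫⁻ x, ∫⁻ t in Ioi 0, F x t := by
        refine lintegral_congr fun x => ?_
        rw [lintegral_indicator measurableSet_Ici, Measure.restrict_restrict measurableSet_Ici,
          lintegral_mul_const _ (by fun_prop)]
        congr 1
        have hae : (Ici (Φ x) ∩ Ioi 0 : Set ℝ) =ᵐ[volume] Ioi (Φ x) := by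
          refine ((Ioi_ae_eq_Ici (μ := (volume : Measure ℝ))).symm.inter (ae_eq_refl _)).trans
            (Filter.EventuallyEq.of_eq ?_)
          rw [Ioi_inter_Ioi, max_eq_left (h0 x)]
        rw [setLIntegral_congr hae, ← ofReal_integral_eq_lintegral_ofReal
          (integrableOn_exp_neg_Ioi _) (.of_forall fun t => (exp_pos _).le), integral_exp_neg_Ioi]
    _ = ∫⁻ t in Ioi 0, ∫⁻ x, F x t := lintegral_lintegral_swap hF.aemeasurable
    _ = ∫⁻ t in Ioi 0,
          ENNReal.ofReal (exp (-t) * t ^ (n + k)) * ∫⁻ x in {x | Φ x ≤ 1}, f x := by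
        refine setLIntegral_congr_fun measurableSet_Ioi fun t (ht : 0 < t) => ?_
        have hs : MeasurableSet {x | Φ x ≤ t} := measurableSet_le hΦ.measurable measurable_const
        have e : (fun x => F x t) =
            {x | Φ x ≤ t}.indicator fun x => ENNReal.ofReal (exp (-t)) * f x := by
          funext x
          by_cases h : Φ x ≤ t <;> simp [F, h]
        simp only [e]
        rw [lintegral_scale ht ((hf.const_mul _).indicator hs)]
        have e2 : ∀ y, {x | Φ x ≤ t}.indicator (fun x => ENNReal.ofReal (exp (-t)) * f x) (t • y) =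
            ENNReal.ofReal (exp (-t) * t ^ k) * {x | Φ x ≤ 1}.indicator f y := fun y => by
          by_cases hy : Φ y ≤ 1
          · rw [indicator_of_mem (show y ∈ {x | Φ x ≤ 1} from hy), indicator_of_mem
              (show t • y ∈ {x | Φ x ≤ t} from by
                show Φ (t • y) ≤ t
                rw [hhom t y ht.le]; nlinarith), hk t y ht, ← mul_assoc,
              ← ENNReal.ofReal_mul (exp_pos _).le]
          · rw [indicator_of_notMem (show y ∉ {x | Φ x ≤ 1} from hy), indicator_of_notMem
              (show t • y ∉ {x | Φ x ≤ t} from by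
                show ¬ Φ (t • y) ≤ t
                rw [hhom t y ht.le]; intro h; exact hy (by nlinarith)), mul_zero]
        simp only [e2]
        rw [lintegral_const_mul _ (hf.indicator hK), lintegral_indicator hK, ← mul_assoc,
          ← ENNReal.ofReal_mul (by positivity), pow_add]
        ring_nf
    _ = _ := by rw [lintegral_mul_const _ (by fun_prop), lintegral_exp_pow]

/-- The first moment of `Φ` on its unit ball. -/
theorem lintegral_self {Φ : (Fin n → ℝ) → ℝ} (hΦ : Continuous Φ) (h0 : ∀ x, 0 ≤ Φ x)
    (hhom : ∀ (r : ℝ) x, 0 ≤ r → Φ (r • x) = r * Φ x)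
    (hfin : volume {x | Φ x ≤ 1} ≠ ⊤) :
    ∫⁻ x in {x | Φ x ≤ 1}, ENNReal.ofReal (Φ x) =
      ENNReal.ofReal ((n : ℝ) / (n + 1) * volume.real {x | Φ x ≤ 1}) := by
  set K := {x | Φ x ≤ 1} with hKdef
  set V := volume.real K
  have hK : MeasurableSet K := measurableSet_le hΦ.measurable measurable_const
  have hf : Measurable fun x => Φ x := hΦ.measurable
  rw [lintegral_eq_lintegral_meas_lt (volume.restrict K) (.of_forall h0) hf.aemeasurable]
  have htail : ∀ t ∈ Ioi (0 : ℝ), (volume.restrict K) {a | t < Φ a} =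
      (Ioc (0 : ℝ) 1).indicator (fun t => ENNReal.ofReal ((1 - t ^ n) * V)) t := by
    intro t (ht : 0 < t)
    rw [Measure.restrict_apply (measurableSet_lt measurable_const hf)]
    by_cases h1 : t ≤ 1
    · rw [indicator_of_mem (show t ∈ Ioc (0 : ℝ) 1 from ⟨ht, h1⟩)]
      have hsub : {x | Φ x ≤ t} ⊆ K := fun x (hx : Φ x ≤ t) => hx.trans h1
      have e : {a | t < Φ a} ∩ K = K \ {x | Φ x ≤ t} := by
        ext x; simp [and_comm]
      rw [e, measure_sdiff hsub (measurableSet_le hf measurable_const).nullMeasurableSet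
        (ne_top_of_le_ne_top hfin (measure_mono hsub))]
      have hv : volume {x | Φ x ≤ t} = ENNReal.ofReal (t ^ n) * volume K := by
        rw [← lintegral_indicator_one (measurableSet_le hf measurable_const),
          lintegral_scale ht (measurable_one.indicator (measurableSet_le hf measurable_const)),
          ← lintegral_indicator_one hK]
        congr 1
        refine lintegral_congr fun y => ?_
        by_cases hy : Φ y ≤ 1
        · rw [indicator_of_mem (show y ∈ K from hy), indicator_of_mem
            (show t • y ∈ {x | Φ x ≤ t} from by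
              show Φ (t • y) ≤ t
              rw [hhom t y ht.le]; nlinarith)]
          rfl
        · rw [indicator_of_notMem (show y ∉ K from hy), indicator_of_notMem
            (show t • y ∉ {x | Φ x ≤ t} from by
              show ¬ Φ (t • y) ≤ t
              rw [hhom t y ht.le]; intro h; exact hy (by nlinarith))]
      have ht1 : t ^ n ≤ 1 := pow_le_one₀ ht.le h1
      rw [hv, ← ENNReal.ofReal_toReal hfin, ← ENNReal.ofReal_mul (by positivity),
        ← ENNReal.ofReal_sub _ (by positivity)]
      congr 1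
      simp only [V, measureReal_def]
      ring
    · rw [indicator_of_notMem (fun h => h1 h.2), measure_eq_zero_iff_ae_notMem.2]
      exact .of_forall fun x hx => absurd (hx.1.trans_le hx.2) (not_lt.2 (le_of_not_ge h1))
  rw [setLIntegral_congr_fun measurableSet_Ioi htail, lintegral_indicator measurableSet_Ioc,
    Measure.restrict_restrict measurableSet_Ioc, inter_eq_left.2 Ioc_subset_Ioi_self,
    ← ofReal_integral_eq_lintegral_ofReal]
  · rw [← intervalIntegral.integral_of_le zero_le_one, intervalIntegral.integral_mul_const,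
      intervalIntegral.integral_sub intervalIntegrable_const (by
        exact (continuous_pow n).intervalIntegrable _ _), integral_pow]
    congr 1
    have : ((n : ℝ) + 1) ≠ 0 := by positivity
    simp only [one_pow, zero_pow n.succ_ne_zero, sub_zero, intervalIntegral.integral_const,
      smul_eq_mul, mul_one]
    field_simp
    ring
  · exact (by fun_prop : Continuous fun t : ℝ => (1 - t ^ n) * V).continuousOn.integrableOn_Icc
      |>.mono_set Ioc_subset_Icc_self
  · exact (ae_restrict_iff' measurableSet_Ioc).2 (.of_forall fun t ht =>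
      mul_nonneg (sub_nonneg.2 (pow_le_one₀ ht.1.le ht.2)) measureReal_nonneg)

end Vale.Agent.P254.L1
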